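import Vale.Agent.P305R13.Defs
import Vale.Agent.P305.MM.Model

/-! A compiler from structured programs to the word RAM, and its correctness. -/

set_option autoImplicit false

namespace Vale.Agent.P305R13

open Vale.Agent.P305 (Op Test State)
open Vale.Agent.P305.MM (RProg RExec)
open Function (update)

variable {w : ℕ} {P : List Instr} {ω : ℕ → Bool}

/-- `g'` is reached from `g` in at most `t` steps -/
def Reach (P : List Instr) (ω : ℕ → Bool) (g : Cfg w) (t : ℕ) (g' : Cfg w) : Prop :=
  ∃ t' ≤ t, (step P ω)^[t'] g = g'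

theorem Reach.refl (g : Cfg w) (t : ℕ) : Reach P ω g t g := ⟨0, Nat.zero_le _, rfl⟩

theorem Reach.trans {g g' g'' : Cfg w} {s t : ℕ} (h : Reach P ω g s g') (h' : Reach P ω g' t g'') :
    Reach P ω g (s + t) g'' := by
  obtain ⟨a, ha, rfl⟩ := h
  obtain ⟨b, hb, rfl⟩ := h'
  exact ⟨b + a, by omega, Function.iterate_add_apply _ _ _ _⟩

theorem Reach.mono {g g' : Cfg w} {s t : ℕ} (h : Reach P ω g s g') (hs : s ≤ t) :
    Reach P ω g t g' := by
  obtain ⟨a, ha, h⟩ := h
  exact ⟨a, ha.trans hs, h⟩

theorem step_of {g : Cfg w} {I : Instr} (h : P[g.pc]? = some I) : step P ω g = I.exec ω g := by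
  simp only [step, h]

theorem Reach.head {g g' : Cfg w} {I : Instr} {t : ℕ} (h : P[g.pc]? = some I)
    (h' : Reach P ω (I.exec ω g) t g') : Reach P ω g (t + 1) g' := by
  obtain ⟨a, ha, rfl⟩ := h'
  exact ⟨a + 1, by omega, by rw [Function.iterate_succ_apply, step_of h]⟩

theorem Reach.one {g : Cfg w} {I : Instr} (h : P[g.pc]? = some I) :
    Reach P ω g 1 (I.exec ω g) := Reach.head h (Reach.refl _ 0)

/-- the code `c` stands in `P` from line `b` on -/
def At (P : List Instr) (b : ℕ) (c : List Instr) : Prop :=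
  ∀ j I, c[j]? = some I → P[b + j]? = some I

theorem At.left {b : ℕ} {c d : List Instr} (h : At P b (c ++ d)) : At P b c := fun j I hj =>
  h j I (by rw [List.getElem?_append_left (List.getElem?_eq_some_iff.1 hj).1]; exact hj)

theorem At.right {b b' : ℕ} {c d : List Instr} (h : At P b (c ++ d)) (hb : b' = b + c.length) :
    At P b' d := fun j I hj => by
  rw [hb, Nat.add_assoc]
  exact h _ I (by rw [List.getElem?_append_right (by omega), Nat.add_sub_cancel_left]; exact hj)

theorem At.get {b : ℕ} {c : List Instr} (h : At P b c) (j : ℕ) {I : Instr} (hj : c[j]? = some I)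
    {x : ℕ} (hx : x = b + j) : P[x]? = some I := hx ▸ h j I hj

/-- the operation on words -/
def wop : Op → WOp
  | .add => .add | .sub => .sub | .mul => .mul | .div => .div | .mod => .mod
  | .land => .and | .lor => .or | .xor => .xor | .shl => .shl | .shr => .shr

/-- a test: go to `l` if it holds and to `b + 2` if not -/
def tst : Test → ℕ → ℕ → List Instr
  | .lt x y, b, l => [.jlt (x + 5) (y + 5) l, .jump (b + 2)]
  | .eq x y, b, l => [.jeq (x + 5) (y + 5) l, .jump (b + 2)]
  | .ne x y, b, l => [.jeq (x + 5) (y + 5) (b + 2), .jump l]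

/-- the length of the code -/
def len : RProg → ℕ
  | .op _ _ _ _ => 4
  | .seq p q => len p + len q
  | .ite _ p q => 3 + len q + len p
  | .loop _ p => 4 + len p
  | _ => 1

open Classical in
/-- the code of a structured program, for the lines from `b` on -/
noncomputable def comp : RProg → ℕ → List Instr
  | .const d c, _ => [.const (d + 5) c]
  | .op o d x y, b => [if o = .sub then .jlt (x + 5) (y + 5) (b + 3) else .jump (b + 1),
      .op (wop o) (d + 5) (x + 5) (y + 5), .jump (b + 4), .const (d + 5) 0]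
  | .load d x, _ => [.load (d + 5) (x + 5)]
  | .store x y, _ => [.store (x + 5) (y + 5)]
  | .coin d, _ => [.coin (d + 5)]
  | .seq p q, b => comp p b ++ comp q (b + len p)
  | .ite c p q, b => tst c b (b + 3 + len q) ++ (comp q (b + 2) ++
      ([.jump (b + 3 + len q + len p)] ++ comp p (b + 3 + len q)))
  | .loop c p, b => tst c b (b + 3) ++ ([.jump (b + 4 + len p)] ++ (comp p (b + 3) ++ [.jump b]))

theorem length_tst (c : Test) (b l : ℕ) : (tst c b l).length = 2 := by cases c <;> rfl

theorem length_comp (p : RProg) (b : ℕ) : (comp p b).length = len p := by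
  induction p generalizing b with
  | seq p q hp hq => simp [comp, len, hp, hq]
  | ite c p q hp hq => simp [comp, len, hp, hq, length_tst]; omega
  | loop c p hp => simp [comp, len, hp, length_tst]; omega
  | _ => rfl

/-- the configuration represents the state -/
structure Rel (g : Cfg w) (s : State) (i : ℕ) : Prop where
  reg : ∀ r, (g.reg (r + 5)).toNat = s.reg r
  mem : ∀ a : BitVec w, (g.mem a).toNat = s.mem a.toNat
  drawn : g.drawn = i

/-- what the code does not touch -/
def Fr (g g' : Cfg w) : Prop := g'.reg 0 = g.reg 0 ∧ g'.inp = g.inp ∧ g'.out = g.out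

theorem Fr.trans {g g' g'' : Cfg w} (h : Fr g g') (h' : Fr g' g'') : Fr g g'' :=
  ⟨h'.1.trans h.1, h'.2.1.trans h.2.1, h'.2.2.trans h.2.2⟩

theorem Rel.pc {g : Cfg w} {s : State} {i : ℕ} (h : Rel g s i) (l : ℕ) :
    Rel { g with pc := l } s i := ⟨h.reg, h.mem, h.drawn⟩

theorem Rel.set {g : Cfg w} {s : State} {i : ℕ} (h : Rel g s i) (d : ℕ) {v : BitVec w} {x : ℕ}
    (hv : v.toNat = x) : Rel (g.set (d + 5) v) ⟨update s.reg d x, s.mem⟩ i := by
  refine ⟨fun r => ?_, h.mem, h.drawn⟩
  by_cases hr : r = d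
  · subst hr; simp [Cfg.set, hv]
  · simp [Cfg.set, hr, h.reg]

theorem fr_set (g : Cfg w) (d : ℕ) (v : BitVec w) : Fr g (g.set (d + 5) v) :=
  ⟨by simp [Cfg.set], rfl, rfl⟩

theorem wop_eval (o : Op) (a b : BitVec w) (h : o.eval a.toNat b.toNat < 2 ^ w)
    (hs : o = .sub → b.toNat ≤ a.toNat) :
    ((wop o).eval a b).toNat = o.eval a.toNat b.toNat := by
  cases o <;> simp only [wop, WOp.eval, Op.eval] at h ⊢
  · rw [BitVec.toNat_add, Nat.mod_eq_of_lt h]
  · exact BitVec.toNat_sub_of_le (BitVec.le_def.2 (hs rfl))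
  · rw [BitVec.toNat_mul, Nat.mod_eq_of_lt h]
  · exact BitVec.toNat_udiv
  · exact BitVec.toNat_umod
  · exact BitVec.toNat_and _ _
  · exact BitVec.toNat_or _ _
  · exact BitVec.toNat_xor _ _
  · rw [BitVec.toNat_shiftLeft, Nat.mod_eq_of_lt h]
  · exact BitVec.toNat_ushiftRight _ _

theorem tst_sim {c : Test} {l : ℕ} {g : Cfg w} {s : State} {i : ℕ} (h : At P g.pc (tst c g.pc l))
    (hr : Rel g s i) : (c.holds s.reg → Reach P ω g 2 { g with pc := l }) ∧
      (¬ c.holds s.reg → Reach P ω g 2 { g with pc := g.pc + 2 }) := by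
  cases c with
  | lt x y =>
    have h0 := h.get 0 rfl (x := g.pc) rfl
    have h1 := h.get 1 rfl rfl
    simp only [Test.holds, ← hr.reg]
    refine ⟨fun hc => ?_, fun hc => Reach.head h0 ?_⟩
    · have := Reach.one (ω := ω) h0
      simp only [Instr.exec, if_pos hc] at this
      exact this.mono (by omega)
    · simp only [Instr.exec, if_neg hc]
      exact Reach.one (g := { g with pc := g.pc + 1 }) h1
  | eq x y =>
    have h0 := h.get 0 rfl (x := g.pc) rfl
    have h1 := h.get 1 rfl rfl
    simp only [Test.holds, ← hr.reg, BitVec.toNat_inj]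
    refine ⟨fun hc => ?_, fun hc => Reach.head h0 ?_⟩
    · have := Reach.one (ω := ω) h0
      simp only [Instr.exec, if_pos hc] at this
      exact this.mono (by omega)
    · simp only [Instr.exec, if_neg hc]
      exact Reach.one (g := { g with pc := g.pc + 1 }) h1
  | ne x y =>
    have h0 := h.get 0 rfl (x := g.pc) rfl
    have h1 := h.get 1 rfl rfl
    simp only [Test.holds, ← hr.reg, ne_eq, BitVec.toNat_inj, not_not]
    refine ⟨fun hc => Reach.head h0 ?_, fun hc => ?_⟩
    · simp only [Instr.exec, if_neg hc]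
      exact Reach.one (g := { g with pc := g.pc + 1 }) h1
    · have := Reach.one (ω := ω) h0
      simp only [Instr.exec, if_pos hc] at this
      exact this.mono (by omega)

theorem sim {W : ℕ} (hW : W < 2 ^ w) {p : RProg} {s s' : State} {i t i' : ℕ}
    (h : RExec W ω p s i t s' i') : ∀ g : Cfg w, At P g.pc (comp p g.pc) → Rel g s i →
      ∃ g', Reach P ω g (3 * t) g' ∧ g'.pc = g.pc + len p ∧ Rel g' s' i' ∧ Fr g g' := by
  induction h with
  | const s i d c h =>
    intro g ha hr
    exact ⟨_, (Reach.one (ha.get 0 rfl (x := g.pc) rfl)).mono (by omega), rfl,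
      hr.set d (by rw [BitVec.toNat_ofNat, Nat.mod_eq_of_lt (by omega)]), fr_set _ _ _⟩
  | op s i o d a b h =>
    classical
    intro g ha hr
    have h0 := ha.get 0 rfl (x := g.pc) rfl
    have h1 := ha.get 1 rfl rfl
    have h2 := ha.get 2 rfl (x := g.pc + 1 + 1) rfl
    have h3 := ha.get 3 rfl rfl
    by_cases hc : o = .sub ∧ s.reg a < s.reg b
    · obtain ⟨rfl, hc⟩ := hc
      refine ⟨_, (Reach.head h0 ?_).mono (by omega : 1 + 1 ≤ 3 * 1), ?_,
        (hr.pc (g.pc + 3)).set d (v := BitVec.ofNat w 0) ?_, fr_set { g with pc := g.pc + 3 } _ _⟩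
      · simp only [Instr.exec, if_true, hr.reg, if_pos hc]
        exact Reach.one (g := { g with pc := g.pc + 3 }) h3
      · rfl
      · simp only [Op.eval, BitVec.toNat_ofNat, Nat.zero_mod]; omega
    · refine ⟨_, Reach.head h0 ?_, rfl, ((hr.pc (g.pc + 1)).set d
        (v := (wop o).eval (g.reg (a + 5)) (g.reg (b + 5))) ?_).pc (g.pc + 4),
        fr_set { g with pc := g.pc + 1 } d ((wop o).eval (g.reg (a + 5)) (g.reg (b + 5)))⟩
      · have e := Reach.head (ω := ω) (g := { g with pc := g.pc + 1 }) h1 (Reach.one h2)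
        split_ifs with ho
        · simp only [Instr.exec, hr.reg, if_neg fun h => hc ⟨ho, h⟩]
          exact e
        · exact e
      · rw [wop_eval o _ _ (by rw [hr.reg, hr.reg]; omega) (by
          rw [hr.reg, hr.reg]; exact fun ho => not_lt.1 fun h => hc ⟨ho, h⟩), hr.reg, hr.reg]
  | load s i d a =>
    intro g ha hr
    exact ⟨_, (Reach.one (ha.get 0 rfl (x := g.pc) rfl)).mono (by omega), rfl,
      hr.set d (by rw [hr.mem, hr.reg]), fr_set _ _ _⟩
  | store s i a b =>
    intro g ha hr
    refine ⟨_, (Reach.one (ha.get 0 rfl (x := g.pc) rfl)).mono (by omega), rfl,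
      ⟨hr.reg, fun x => ?_, hr.drawn⟩, rfl, rfl, rfl⟩
    simp only [Instr.exec, ← hr.reg]
    by_cases hx : x = g.reg (a + 5)
    · subst hx; simp
    · rw [Function.update_of_ne hx, Function.update_of_ne (mt BitVec.toNat_inj.1 hx), hr.mem]
  | coin s i d h =>
    intro g ha hr
    have h1 := hr.set d (v := if ω g.drawn then 1 else 0) (x := if ω i then 1 else 0) (by
      rw [hr.drawn]
      split_ifs
      · exact BitVec.toNat_one (Nat.pos_of_ne_zero fun h0 => by subst h0; omega)
      · rfl)
    exact ⟨_, (Reach.one (ha.get 0 rfl (x := g.pc) rfl)).mono (by omega), rfl,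
      ⟨h1.reg, h1.mem, congrArg (· + 1) hr.drawn⟩, fr_set g d (if ω g.drawn then 1 else 0)⟩
  | seq p q s s' s'' i i' i'' t t' h h' ih ih' =>
    intro g ha hr
    obtain ⟨g1, a1, a2, a3, a4⟩ := ih g ha.left hr
    obtain ⟨g2, b1, b2, b3, b4⟩ := ih' g1 (by rw [a2]; exact ha.right (by rw [length_comp])) a3
    exact ⟨g2, (a1.trans b1).mono (by omega), by rw [b2, a2, len]; omega, b3, a4.trans b4⟩
  | iteTrue c p q s s' i i' t hc h ih =>
    intro g ha hr
    obtain ⟨g1, a1, a2, a3, a4⟩ := ih { g with pc := g.pc + 3 + len q }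
      (((ha.right rfl).right rfl).right (by simp [length_tst, length_comp]; omega)) (hr.pc _)
    exact ⟨g1, (((tst_sim ha.left hr).1 hc).trans a1).mono (by omega),
      by rw [a2, len]; simp only; omega, a3, a4⟩
  | iteFalse c p q s s' i i' t hc h ih =>
    intro g ha hr
    have ha' := ha.right (b' := g.pc + 2) (by rw [length_tst])
    obtain ⟨g1, a1, a2, a3, a4⟩ := ih { g with pc := g.pc + 2 } ha'.left (hr.pc _)
    have h1 := Reach.one (ω := ω) ((ha'.right rfl).get 0 rfl (x := g1.pc)
      (by rw [a2, length_comp]; rfl))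
    exact ⟨_, ((((tst_sim ha.left hr).2 hc).trans a1).trans h1).mono (by omega),
      by rw [len]; simp only [Instr.exec]; omega, a3.pc _, a4⟩
  | loopDone c p s i hc =>
    intro g ha hr
    have h1 := Reach.one (ω := ω) (g := { g with pc := g.pc + 2 })
      ((ha.right (b' := g.pc + 2) (by rw [length_tst])).get 0 rfl rfl)
    exact ⟨_, (((tst_sim ha.left hr).2 hc).trans h1).mono (by omega),
      by rw [len]; simp only [Instr.exec]; omega, hr.pc _, rfl, rfl, rfl⟩
  | loopStep c p s s' s'' i i' i'' t t' hc h h' ih ih' =>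
    intro g ha hr
    have ha' := (ha.right rfl).right (b' := g.pc + 3) (by simp [length_tst])
    obtain ⟨g1, a1, a2, a3, a4⟩ := ih { g with pc := g.pc + 3 } ha'.left (hr.pc _)
    have h1 := Reach.one (ω := ω) ((ha'.right rfl).get 0 rfl (x := g1.pc)
      (by rw [a2, length_comp]; rfl))
    obtain ⟨g2, b1, b2, b3, b4⟩ := ih' { g1 with pc := g.pc } ha (a3.pc _)
    exact ⟨g2, (((((tst_sim ha.left hr).1 hc).trans a1).trans h1).trans b1).mono (by omega),
      b2, b3, Fr.trans a4 b4⟩

end Vale.Agent.P305R13
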