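import Mathlib.Combinatorics.SimpleGraph.Matching
import Mathlib.Probability.ProductMeasure
import Mathlib.Probability.UniformOn

/-! The randomized word RAM: words of `w` bits, a memory of `2 ^ w` words, registers, a program
counter, jumps, fair random bits, an input tape and an output tape. Graphs as adjacency lists. -/

set_option autoImplicit false

open MeasureTheory ProbabilityTheory
open scoped ENNReal

namespace Vale.Agent.P305R13

/-- The unit-cost operations on two words. -/
inductive WOp
  | add | sub | mul | div | mod | and | or | xor | shl | shr

/-- The value of an operation on two `w`-bit words: arithmetic modulo `2 ^ w`, unsigned division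
and remainder, bitwise operations, shifts. -/
def WOp.eval {w : ℕ} : WOp → BitVec w → BitVec w → BitVec w
  | .add, a, b => a + b
  | .sub, a, b => a - b
  | .mul, a, b => a * b
  | .div, a, b => a / b
  | .mod, a, b => a % b
  | .and, a, b => a &&& b
  | .or, a, b => a ||| b
  | .xor, a, b => a ^^^ b
  | .shl, a, b => a <<< b.toNat
  | .shr, a, b => a >>> b.toNat

/-- Instructions, with registers `R` and memory `M`: `R i := c`; `R i := R j o R k`;
`R i := M (R j)`; `M (R i) := R j`; `R i :=` a fresh random bit; `R i :=` the next input word;
append `R i` to the output; go to line `l`; go to line `l` if `R i < R j`; go to line `l` if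
`R i = R j`. A program is a list of instructions. -/
inductive Instr
  | const (i c : ℕ)
  | op (o : WOp) (i j k : ℕ)
  | load (i j : ℕ)
  | store (i j : ℕ)
  | coin (i : ℕ)
  | read (i : ℕ)
  | write (i : ℕ)
  | jump (l : ℕ)
  | jlt (i j l : ℕ)
  | jeq (i j l : ℕ)

/-- A configuration: the program counter, the registers, the memory (`2 ^ w` words, addressed by
words), the number of random bits drawn, the input words not yet read, the output written. -/
structure Cfg (w : ℕ) where
  pc : ℕ
  reg : ℕ → BitVec w
  mem : BitVec w → BitVec w
  drawn : ℕ
  inp : List (BitVec w)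
  out : List (BitVec w)

/-- Write `v` to register `i` and go to the next line. -/
def Cfg.set {w : ℕ} (g : Cfg w) (i : ℕ) (v : BitVec w) : Cfg w :=
  { g with pc := g.pc + 1, reg := Function.update g.reg i v }

/-- The effect of one instruction; `ω 0, ω 1, …` are the random bits. -/
def Instr.exec {w : ℕ} (ω : ℕ → Bool) : Instr → Cfg w → Cfg w
  | .const i c, g => g.set i (BitVec.ofNat w c)
  | .op o i j k, g => g.set i (o.eval (g.reg j) (g.reg k))
  | .load i j, g => g.set i (g.mem (g.reg j))
  | .store i j, g => { g with pc := g.pc + 1, mem := Function.update g.mem (g.reg i) (g.reg j) }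
  | .coin i, g => { g.set i (if ω g.drawn then 1 else 0) with drawn := g.drawn + 1 }
  | .read i, g => { g.set i (g.inp.headD 0) with inp := g.inp.tail }
  | .write i, g => { g with pc := g.pc + 1, out := g.out ++ [g.reg i] }
  | .jump l, g => { g with pc := l }
  | .jlt i j l, g => { g with pc := if (g.reg i).toNat < (g.reg j).toNat then l else g.pc + 1 }
  | .jeq i j l, g => { g with pc := if g.reg i = g.reg j then l else g.pc + 1 }

/-- One step of the program `P`: the instruction in the line given by the program counter is
carried out. If there is no such line, the machine has halted and nothing changes. -/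
def step {w : ℕ} (P : List Instr) (ω : ℕ → Bool) (g : Cfg w) : Cfg w :=
  match P[g.pc]? with
  | none => g
  | some I => I.exec ω g

/-- The configuration after `T` steps on the input `x`; at the start `x` is on the input tape, one
number in each word, the output is empty and all registers and memory cells hold `0`. -/
def run (P : List Instr) (w : ℕ) (ω : ℕ → Bool) (x : List ℕ) (T : ℕ) : Cfg w :=
  (step P ω)^[T] ⟨0, fun _ => 0, fun _ => 0, 0, x.map (BitVec.ofNat w), []⟩

/-- The law of the random bits: independent and fair. -/
noncomputable def coins : Measure (ℕ → Bool) := Measure.infinitePi fun _ => uniformOn Set.univ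

/-- Adjacency lists of a graph on `Fin n`, each in an arbitrary order. -/
structure AdjLists {n : ℕ} (G : SimpleGraph (Fin n)) where
  nbrs : Fin n → List (Fin n)
  nodup : ∀ v, (nbrs v).Nodup
  mem_iff : ∀ u v, v ∈ nbrs u ↔ G.Adj u v

variable {n : ℕ} {G : SimpleGraph (Fin n)}

/-- The concatenation of the adjacency lists of the first `k` vertices. -/
def AdjLists.upTo (L : AdjLists G) (k : ℕ) : List (Fin n) :=
  ((List.finRange n).take k).flatMap L.nbrs

/-- The input: the number `n`, then the `n + 1` positions at which the lists of the vertices start
(and the last one ends), then the adjacency lists one after the other. -/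
def AdjLists.encode (L : AdjLists G) : List ℕ :=
  n :: ((List.range (n + 1)).map (fun k => (L.upTo k).length) ++ (L.upTo n).map Fin.val)

/-- `M` is a maximum-cardinality matching of `G`. -/
def IsMaximumMatching (M : G.Subgraph) : Prop :=
  M.IsMatching ∧ ∀ M' : G.Subgraph, M'.IsMatching → M'.edgeSet.ncard ≤ M.edgeSet.ncard

/-- The output `y` lists `M`: it has `n` words, and word `v` is `u + 1` if `M` joins `v` to `u`,
and `0` if `M` leaves `v` uncovered. -/
def Lists {w : ℕ} (y : List (BitVec w)) (M : G.Subgraph) : Prop :=
  y.length = n ∧ ∀ v : Fin n, (v ∉ M.verts → (y.getD v 0).toNat = 0) ∧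
    ∀ u : Fin n, M.Adj v u → (y.getD v 0).toNat = u + 1

/-- The event that after `T` steps the output is a maximum matching. -/
def Success (P : List Instr) (w : ℕ) (L : AdjLists G) (T : ℕ) : Set (ℕ → Bool) :=
  {ω | ∃ M : G.Subgraph, IsMaximumMatching M ∧ Lists (run P w ω L.encode T).out M}

/-- With words of `w` bits and on the input `L`, the program `P` halts within `T` steps whatever
the random bits are, and outputs a maximum matching with probability at least `2/3`. -/
def Solves (P : List Instr) (w : ℕ) (L : AdjLists G) (T : ℕ) : Prop :=
  (∀ ω, P.length ≤ (run P w ω L.encode T).pc) ∧ 2 / 3 ≤ coins (Success P w L T)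

end Vale.Agent.P305R13
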