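import Vale.Agent.P305R13.Prob
import Vale.Agent.P305.MM.CompileIO

/-! The lower bound: the input has to be read. -/

set_option autoImplicit false

open MeasureTheory
open scoped ENNReal

namespace Vale.Agent.P305R13

/-- the same lists, in the old type -/
def AdjLists.old {n : ℕ} {G : SimpleGraph (Fin n)} (L : AdjLists G) : P305.AdjLists G :=
  ⟨L.nbrs, L.nodup, L.mem_iff⟩

theorem upTo_length {n : ℕ} {G : SimpleGraph (Fin n)} (L : AdjLists G) :
    (L.upTo n).length = 2 * G.edgeSet.ncard := P305.MM.IO.upTo_length L.old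

theorem exists_lists {n : ℕ} (G : SimpleGraph (Fin n)) : Nonempty (AdjLists G) := by
  classical
  exact ⟨⟨fun v => (G.neighborFinset v).toList, fun v => Finset.nodup_toList _, by simp⟩⟩

theorem exists_graph {k m : ℕ} (h : m ≤ k.choose 2) : ∃ H : SimpleGraph (Fin (k + 4)),
    H.edgeSet.ncard = m ∧ ∀ u v, H.Adj u v → u.val < k := by
  classical
  obtain ⟨s, hs, hc⟩ := Finset.exists_subset_card_eq (s := (⊤ : SimpleGraph (Fin k)).edgeFinset)
    (n := m) (by rwa [SimpleGraph.card_edgeFinset_top_eq_card_choose_two, Fintype.card_fin])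
  refine ⟨(SimpleGraph.fromEdgeSet (s : Set (Sym2 (Fin k)))).map (Fin.castAddEmb 4), ?_, ?_⟩
  · rw [SimpleGraph.edgeSet_map, Set.ncard_image_of_injective _ (Function.Embedding.injective _),
      SimpleGraph.edgeSet_fromEdgeSet, Disjoint.sdiff_eq_left, Set.ncard_coe_finset, hc]
    refine Set.disjoint_left.2 fun e he hd => ?_
    exact (⊤ : SimpleGraph (Fin k)).not_isDiag_of_mem_edgeFinset (hs he) hd
  · intro u v huv
    obtain ⟨a, b, -, rfl, -⟩ := (SimpleGraph.map_adj _ _ _ _).1 huv
    exact a.2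

variable {k : ℕ} {H : SimpleGraph (Fin (k + 4))} {π : Fin (k + 4) → Fin (k + 4)}

/-- a perfect matching of the last four vertices -/
def Pairing (π : Fin (k + 4) → Fin (k + 4)) : Prop :=
  ∀ v : Fin (k + 4), k ≤ v.val → k ≤ (π v).val ∧ π (π v) = v ∧ π v ≠ v

/-- the graph `H` with two more edges -/
def plus (H : SimpleGraph (Fin (k + 4))) (hπ : Pairing π) : SimpleGraph (Fin (k + 4)) where
  Adj u v := H.Adj u v ∨ (k ≤ u.val ∧ v = π u)
  symm := ⟨fun u _ h => h.imp H.adj_symm fun ⟨h1, h2⟩ =>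
    ⟨h2 ▸ (hπ u h1).1, h2 ▸ (hπ u h1).2.1.symm⟩⟩
  loopless := ⟨fun u h => h.elim (H.loopless.irrefl u) fun ⟨h1, h2⟩ => (hπ u h1).2.2 h2.symm⟩

/-- its adjacency lists -/
def plusL (hH : ∀ u v, H.Adj u v → u.val < k) (L : AdjLists H) (hπ : Pairing π) :
    AdjLists (plus H hπ) where
  nbrs v := if v.val < k then L.nbrs v else [π v]
  nodup v := by split_ifs; exacts [L.nodup v, List.nodup_singleton _]
  mem_iff u v := by
    split_ifs with h
    · exact (L.mem_iff u v).trans ⟨Or.inl, fun h' => h'.elim id fun h'' => by omega⟩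
    · exact List.mem_singleton.trans ⟨fun h' => Or.inr ⟨by omega, h'⟩,
        fun h' => h'.elim (fun h'' => (h (hH _ _ h'')).elim) And.right⟩

theorem lt_of_take {v : Fin (k + 4)} (h : v ∈ (List.finRange (k + 4)).take k) : v.val < k := by
  obtain ⟨i, hi, rfl⟩ := List.mem_take_iff_getElem.1 h
  simp only [List.getElem_finRange, Fin.val_cast]
  omega

theorem le_of_drop {v : Fin (k + 4)} (h : v ∈ (List.finRange (k + 4)).drop k) : k ≤ v.val := by
  obtain ⟨i, hi, rfl⟩ := List.mem_drop_iff_getElem.1 h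
  simp only [List.getElem_finRange, Fin.val_cast]
  omega

theorem upTo_split {G : SimpleGraph (Fin (k + 4))} (L : AdjLists G) : L.upTo (k + 4) =
    L.upTo k ++ ((List.finRange (k + 4)).drop k).flatMap L.nbrs := by
  unfold AdjLists.upTo
  rw [← List.flatMap_append, List.take_append_drop, List.take_of_length_le (by simp)]

theorem plusL_upTo (hH : ∀ u v, H.Adj u v → u.val < k) (L : AdjLists H) (hπ : Pairing π) :
    ∃ r : List (Fin (k + 4)), r.length = 4 ∧ (plusL hH L hπ).upTo (k + 4) = L.upTo (k + 4) ++ r := by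
  refine ⟨((List.finRange (k + 4)).drop k).map π, by simp, ?_⟩
  have h1 : (plusL hH L hπ).upTo k = L.upTo k :=
    List.flatMap_congr fun v hv => if_pos (lt_of_take hv)
  have h2 : ((List.finRange (k + 4)).drop k).flatMap L.nbrs = [] :=
    List.flatMap_eq_nil_iff.2 fun v hv => List.eq_nil_iff_forall_not_mem.2 fun u hu => by
      have := hH _ _ ((L.mem_iff _ _).1 hu)
      have := le_of_drop hv
      omega
  rw [upTo_split, upTo_split, h1, h2, List.append_nil, List.map_eq_flatMap]
  exact congrArg _ (List.flatMap_congr fun v hv => if_neg (not_lt.2 (le_of_drop hv)))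

theorem plus_ncard (hH : ∀ u v, H.Adj u v → u.val < k) (hπ : Pairing π) :
    (plus H hπ).edgeSet.ncard = H.edgeSet.ncard + 2 := by
  obtain ⟨L⟩ := exists_lists H
  obtain ⟨r, h1, h2⟩ := plusL_upTo hH L hπ
  have := congrArg List.length h2
  rw [List.length_append, upTo_length, upTo_length] at this
  omega

theorem plusL_take (hH : ∀ u v, H.Adj u v → u.val < k) (L : AdjLists H) (hπ : Pairing π)
    {π' : Fin (k + 4) → Fin (k + 4)} (hπ' : Pairing π') {T : ℕ}
    (hT : T ≤ k + 6 + 2 * H.edgeSet.ncard) :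
    (plusL hH L hπ).encode.take T = (plusL hH L hπ').encode.take T := by
  obtain ⟨r, -, h⟩ := plusL_upTo hH L hπ
  obtain ⟨r', -, h'⟩ := plusL_upTo hH L hπ'
  have e : (fun j => ((plusL hH L hπ).upTo j).length) =
      fun j => ((plusL hH L hπ').upTo j).length := by
    funext j
    simp only [AdjLists.upTo, List.length_flatMap, plusL]
    congr 2
    funext v
    split_ifs <;> rfl
  have key : ∀ (a : ℕ) (A B C : List ℕ), T ≤ A.length + B.length + 1 →
      (a :: (A ++ (B ++ C))).take T = (a :: (A ++ B)).take T := fun a A B C hl => by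
    rw [← List.append_assoc, ← List.cons_append, List.take_append_of_le_length (by simpa using hl)]
  unfold AdjLists.encode
  rw [h, h', e, List.map_append, List.map_append, key, key] <;> simp [upTo_length] <;> omega

theorem adj_of_max (hH : ∀ u v, H.Adj u v → u.val < k) (hπ : Pairing π)
    {M : (plus H hπ).Subgraph} (hM : IsMaximumMatching M) {a : Fin (k + 4)} (ha : k ≤ a.val) :
    M.Adj a (π a) := by
  have key : ∀ u : Fin (k + 4), k ≤ u.val → u ∈ M.verts → M.Adj u (π u) := fun u hu hv => by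
    obtain ⟨v, h, -⟩ := hM.1 hv
    rcases M.adj_sub h with h' | h'
    · have := hH _ _ h'; omega
    · exact h'.2 ▸ h
  by_contra hn
  have h1 : a ∉ M.verts := fun h => hn (key a ha h)
  have h2 : π a ∉ M.verts := fun h => h1 (by
    have := (key _ (hπ a ha).1 h).snd_mem
    rwa [(hπ a ha).2.1] at this)
  have hadj : (plus H hπ).Adj a (π a) := Or.inr ⟨ha, rfl⟩
  have h3 := hM.2 _ (hM.1.sup (SimpleGraph.Subgraph.IsMatching.subgraphOfAdj hadj) (by
    rw [hM.1.support_eq_verts, SimpleGraph.support_subgraphOfAdj, Set.disjoint_insert_right,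
      Set.disjoint_singleton_right]
    exact ⟨h1, h2⟩))
  rw [SimpleGraph.Subgraph.edgeSet_sup, SimpleGraph.edgeSet_subgraphOfAdj, Set.union_singleton,
    Set.ncard_insert_of_notMem (show s(a, π a) ∉ M.edgeSet from hn) (Set.toFinite _)] at h3
  omega

theorem lower (P : List Instr) (w T n m : ℕ) (hn : 4 ≤ n) (h2 : 2 ≤ m)
    (hm : m ≤ (n - 4).choose 2 + 2)
    (h : ∀ G : SimpleGraph (Fin n), G.edgeSet.ncard = m → ∀ L : AdjLists G,
      2 / 3 ≤ coins (Success P w L T)) : n + 2 * m ≤ T + 1 := by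
  obtain ⟨k, rfl⟩ : ∃ k, n = k + 4 := ⟨n - 4, by omega⟩
  obtain ⟨H, hc, hH⟩ := exists_graph (k := k) (m := m - 2) (by simpa using hm)
  obtain ⟨L⟩ := exists_lists H
  have p1 : Pairing fun v : Fin (k + 4) => (⟨k + (3 - (v.val - k)), by omega⟩ : Fin (k + 4)) :=
    fun v hv => by simp only [Fin.ext_iff, ne_eq]; omega
  have p2 : Pairing fun v : Fin (k + 4) => (⟨k + (v.val - k + 2) % 4, by omega⟩ : Fin (k + 4)) :=
    fun v hv => by simp only [Fin.ext_iff, ne_eq]; omega
  by_contra hT
  have h1 := h _ (by rw [plus_ncard hH p1]; omega) (plusL hH L p1)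
  have h3 := h _ (by rw [plus_ncard hH p2]; omega) (plusL hH L p2)
  have hd : Disjoint (Success P w (plusL hH L p1) T) (Success P w (plusL hH L p2) T) := by
    refine Set.disjoint_left.2 fun ω ⟨M, a1, _, a2⟩ ⟨M', b1, _, b2⟩ => ?_
    have c1 := (a2 ⟨k, by omega⟩).2 _ (adj_of_max hH p1 a1 le_rfl)
    have c2 := (b2 ⟨k, by omega⟩).2 _ (adj_of_max hH p2 b1 le_rfl)
    rw [run_out_congr ω (plusL_take hH L p1 p2 (by omega)), c2] at c1
    simp only at c1
    omega
  have := coins_prob
  have h4 := (add_le_add h1 h3).trans ((measure_union hd (success_local _ _).1).symm.le.trans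
    prob_le_one)
  rw [← ENNReal.add_div, ENNReal.div_le_iff (by norm_num) (by norm_num)] at h4
  norm_num at h4

end Vale.Agent.P305R13
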