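import Vale.Agent.P305R13.Defs
import Vale.Agent.P305.MM.Model

/-! A run of `T` steps depends on the first `T` random bits and the first `T` input words. -/

set_option autoImplicit false

open MeasureTheory hiding extend
open ProbabilityTheory
open scoped ENNReal

namespace Vale.Agent.P305R13

open Vale.Agent.P305.MM (extend)

variable {w : ℕ} {P : List Instr}

theorem drawn_step (ω : ℕ → Bool) (g : Cfg w) : (step P ω g).drawn ≤ g.drawn + 1 := by
  unfold step
  split
  · omega
  · rename_i I _
    cases I <;> simp [Instr.exec, Cfg.set]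

theorem step_congr {ω ω' : ℕ → Bool} (g : Cfg w) (h : ω g.drawn = ω' g.drawn) :
    step P ω g = step P ω' g := by
  unfold step
  split
  · rfl
  · rename_i I _
    cases I <;> simp only [Instr.exec, h]

theorem iter_congr {ω ω' : ℕ → Bool} (t : ℕ) : ∀ g : Cfg w, (∀ i < g.drawn + t, ω i = ω' i) →
    (step P ω)^[t] g = (step P ω')^[t] g := by
  induction t with
  | zero => exact fun _ _ => rfl
  | succ t ih =>
    intro g h
    rw [Function.iterate_succ_apply, Function.iterate_succ_apply, ← step_congr g (h _ (by omega))]
    exact ih _ fun i hi => h i (by have := drawn_step (P := P) ω g; omega)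

theorem run_congr {ω ω' : ℕ → Bool} {T : ℕ} (h : ∀ i < T, ω i = ω' i) (x : List ℕ) :
    run P w ω x T = run P w ω' x T := iter_congr T _ fun i hi => h i (by simpa using hi)

theorem out_congr (ω : ℕ → Bool) (t : ℕ) : ∀ (g : Cfg w) (l : List (BitVec w)),
    g.inp.take t = l.take t →
      ((step P ω)^[t] g).out = ((step P ω)^[t] { g with inp := l }).out := by
  induction t with
  | zero => exact fun _ _ _ => rfl
  | succ t ih =>
    intro g l h
    have h1 : g.inp.take t = l.take t := by
      have := congrArg (List.take t) h
      rwa [List.take_take, List.take_take, min_eq_left (by omega)] at this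
    have h2 : g.inp.headD 0 = l.headD 0 ∧ g.inp.tail.take t = l.tail.take t := by
      generalize g.inp = l' at h
      cases l' <;> cases l <;> simp_all
    rw [Function.iterate_succ_apply, Function.iterate_succ_apply]
    cases hI : P[g.pc]? with
    | none => simp only [step, hI]; exact ih g l h1
    | some I =>
      simp only [step, hI]
      cases I with
      | read i => simp only [Instr.exec, ← h2.1]; exact ih _ l.tail h2.2
      | _ => exact ih _ l h1

theorem run_out_congr (ω : ℕ → Bool) {x y : List ℕ} {T : ℕ} (h : x.take T = y.take T) :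
    (run P w ω x T).out = (run P w ω y T).out :=
  out_congr ω T _ (y.map (BitVec.ofNat w)) (by rw [← List.map_take, ← List.map_take, h])

theorem coins_prob : IsProbabilityMeasure coins := by unfold coins; infer_instance

theorem coins_local {B : ℕ} {E : Set (ℕ → Bool)}
    (hE : ∀ ω ω' : ℕ → Bool, (∀ i < B, ω i = ω' i) → ω ∈ E → ω' ∈ E) : MeasurableSet E ∧
      coins E = Nat.card {η : Fin B → Bool // extend η ∈ E} * 2⁻¹ ^ B := by
  classical
  let c : (Fin B → Bool) → Set (ℕ → Bool) := fun η =>
    Set.pi (Finset.range B : Set ℕ) fun i => {extend η i}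
  have hc : ∀ η ω, ω ∈ c η ↔ ∀ i < B, ω i = extend η i := fun η ω => by simp [c]
  have hm : ∀ η, MeasurableSet (c η) := fun η =>
    MeasurableSet.pi (Finset.countable_toSet _) fun _ _ => MeasurableSet.singleton _
  have hμ : ∀ η, coins (c η) = 2⁻¹ ^ B := fun η => by
    unfold coins
    rw [Measure.infinitePi_pi _ fun _ _ => MeasurableSet.singleton _]
    simp only [uniformOn_univ, Measure.count_singleton, Fintype.card_bool]
    simp
  have hU : E = ⋃ η ∈ Finset.univ.filter fun η : Fin B → Bool => extend η ∈ E, c η := by
    ext ω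
    simp only [Set.mem_iUnion, Finset.mem_filter, Finset.mem_univ, true_and, hc]
    refine ⟨fun h => ⟨fun i => ω i, hE ω _ (fun i hi => ?_) h, fun i hi => ?_⟩,
      fun ⟨η, h1, h2⟩ => hE _ ω (fun i hi => (h2 i hi).symm) h1⟩ <;> simp [extend, hi]
  refine ⟨hU ▸ Finset.measurableSet_biUnion _ fun η _ => hm η, ?_⟩
  rw [Nat.subtype_card (Finset.univ.filter fun η : Fin B → Bool => extend η ∈ E) (by simp)]
  conv_lhs => rw [hU]
  rw [measure_biUnion_finset _ fun η _ => hm η]
  · simp [hμ]
  · refine fun η _ η' _ hne => Set.disjoint_left.2 fun ω h h' => hne (funext fun i => ?_)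
    have := ((hc η ω).1 h i i.2).symm.trans ((hc η' ω).1 h' i i.2)
    simpa [extend] using this

theorem success_local {n : ℕ} {G : SimpleGraph (Fin n)} (L : AdjLists G) (T : ℕ) :
    MeasurableSet (Success P w L T) ∧ coins (Success P w L T) =
      Nat.card {η : Fin T → Bool // extend η ∈ Success P w L T} * 2⁻¹ ^ T :=
  coins_local fun ω ω' h hω => by
    unfold Success at hω ⊢
    rwa [Set.mem_ofPred_eq, ← run_congr h]

end Vale.Agent.P305R13
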