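import Vale.Agent.P305R13.Wrap
import Vale.Agent.P305R13.Low
import Vale.Agent.P305Z.Top

/-! The upper bound on the word RAM. -/

set_option autoImplicit false

open MeasureTheory
open scoped ENNReal

namespace Vale.Agent.P305R13

open Vale.Agent.P305.MM (RProg RandSolves)

theorem two_mul_ncard {n : ℕ} (G : SimpleGraph (Fin n)) : 2 * G.edgeSet.ncard ≤ n * n := by
  classical
  have h := G.card_edgeFinset_le_card_choose_two
  rw [Fintype.card_fin, Nat.choose_two_right] at h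
  rw [← SimpleGraph.coe_edgeFinset, Set.ncard_coe_finset]
  have : n * (n - 1) ≤ n * n := Nat.mul_le_mul_left _ (Nat.sub_le _ _)
  omega

theorem solves_of {p : RProg} {T : ℕ → ℕ → ℕ} (h : RandSolves p T) : ∃ k : ℕ,
    ∀ (n : ℕ) (G : SimpleGraph (Fin n)) (L : AdjLists G) (w : ℕ), k * Nat.clog 2 (n + 2) ≤ w →
      Solves (prog p) w L (3 * T n G.edgeSet.ncard + 10 * n + 10 * G.edgeSet.ncard + 19) := by
  obtain ⟨k, h⟩ := h
  refine ⟨2 * k + 2, fun n G L w hw => ?_⟩
  obtain ⟨h1, h2⟩ := h n G L.old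
  have hm := two_mul_ncard G
  set m := G.edgeSet.ncard with hmd
  have b0 : (n + 2) ^ (2 * k + 2) ≤ 2 ^ w :=
    calc (n + 2) ^ (2 * k + 2) ≤ (2 ^ Nat.clog 2 (n + 2)) ^ (2 * k + 2) :=
          Nat.pow_le_pow_left (Nat.le_pow_clog (by norm_num) _) _
      _ ≤ 2 ^ w := by
          rw [← pow_mul, mul_comm]; exact Nat.pow_le_pow_right (by norm_num) hw
  have b1 : n + 2 + 2 * m < (n + 2) ^ 2 := by nlinarith
  have b2 : (n + m + 2) ^ k ≤ (n + 2) ^ (2 * k) := by
    rw [pow_mul]; exact Nat.pow_le_pow_left (by omega) _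
  have hW : (n + m + 2) ^ k < 2 ^ w :=
    b2.trans_lt ((Nat.pow_lt_pow_right (by omega) (by omega)).trans_le b0)
  have hb : n + 2 + 2 * m < 2 ^ w :=
    b1.trans_le ((Nat.pow_le_pow_right (by omega) (by omega)).trans b0)
  have hx : ∀ i, L.encode.getD i 0 < 2 ^ w := fun i =>
    (P305.MM.IO.encode_le L.old i).trans_lt (by omega)
  have hn : L.encode.getD 0 0 = n := rfl
  have hd : L.encode.getD (n + 1) 0 = 2 * m :=
    (P305.MM.IO.encode_off L.old le_rfl).trans (upTo_length L)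
  have hl : L.encode.length ≤ n + 2 + 2 * m :=
    ((P305.MM.IO.encode_length L.old).trans (congrArg _ (upTo_length L))).le
  set B := 3 * T n m + 10 * n + 10 * m + 19 with hB
  have halt : ∀ ω, (prog p).length ≤ (run (prog p) w ω L.encode B).pc := fun ω => by
    obtain ⟨t, s, i, a1, a2⟩ := h1 ω
    exact (whole hW hx hn hd hl hb a1 (by omega)).1
  refine ⟨halt, ?_⟩
  have h3 := (h2 B (by omega)).trans (Nat.mul_le_mul_left 3 (Nat.card_le_card_of_injective
    (β := {η : Fin B → Bool // P305.MM.extend η ∈ Success (prog p) w L B})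
    (Subtype.map id fun η hη => ?_) (Subtype.map_injective _ Function.injective_id)))
  · rw [(success_local L B).2, ← ENNReal.inv_pow, ← div_eq_mul_inv,
      ENNReal.le_div_iff_mul_le (by simp) (by simp), div_eq_mul_inv, mul_right_comm,
      ← div_eq_mul_inv, ENNReal.div_le_iff' (by simp) (by simp)]
    exact_mod_cast h3
  · obtain ⟨t, s, i, M, a1, a2, a3⟩ := hη
    obtain ⟨-, c1, c2⟩ := whole hW hx hn hd hl hb a1 (T := 3 * t + B) (by omega)
    have e : run (prog p) w (P305.MM.extend η) L.encode (3 * t + B) =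
        run (prog p) w (P305.MM.extend η) L.encode B := by
      rw [run, Function.iterate_add_apply]
      exact iterate_halted (halt _) _
    rw [e] at c1 c2
    refine ⟨M, a2, c1, fun v => ?_⟩
    rw [id, c2 v v.2]
    exact a3 v

theorem upper : ∃ (P : List Instr) (k : ℕ) (T : ℕ → ℕ → ℕ),
    (∀ (n : ℕ) (G : SimpleGraph (Fin n)) (L : AdjLists G) (w : ℕ), k * Nat.clog 2 (n + 2) ≤ w →
      Solves P w L (T n G.edgeSet.ncard)) ∧
    (∀ δ : ℝ, 0 < δ → ∃ C : ℝ, ∀ n m : ℕ, (T n m : ℝ) ≤ C * ((n : ℝ) + m + 1) ^ (1 + δ)) ∧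
    ∃ ε : ℕ → ℝ, Filter.Tendsto ε Filter.atTop (nhds 0) ∧
      ∀ n m : ℕ, (T n m : ℝ) ≤ ((n : ℝ) + m + 2) ^ (1 + ε (n + m)) := by
  obtain ⟨ph, c, g, hp⟩ := P305Z.phase
  obtain ⟨p, T, h1, h2⟩ := P305O.full hp
  obtain ⟨k, h⟩ := solves_of h2
  have h3 : P305E.AlmostLin fun n m => 3 * T n m + 10 * n + 10 * m + 19 := fun δ hδ => by
    obtain ⟨C, hC⟩ := h1 δ hδ
    refine ⟨3 * C + 19, fun n m => ?_⟩
    have a : (0 : ℝ) ≤ n := Nat.cast_nonneg _
    have b : (0 : ℝ) ≤ m := Nat.cast_nonneg _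
    have e : (n : ℝ) + m + 1 ≤ ((n : ℝ) + m + 1) ^ (1 + δ) :=
      Real.self_le_rpow_of_one_le (by linarith) (by linarith)
    have := hC n m
    push_cast
    linarith
  exact ⟨prog p, k, _, h, h3, P305O.eps_of_almostLin h3⟩

end Vale.Agent.P305R13
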