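import Vale.Agent.P305R13.Comp

/-! Reading the input, writing the output, and the whole program. -/

set_option autoImplicit false

namespace Vale.Agent.P305R13

open Vale.Agent.P305 (State)
open Vale.Agent.P305.MM (RProg RExec)

variable {w : ℕ} {P : List Instr} {ω : ℕ → Bool}

/-- copy input words to the memory -/
def rd (b : ℕ) : List Instr := [.jeq 1 2 (b + 5), .read 3, .store 1 3, .op .add 1 1 4, .jump b]

/-- copy memory cells to the output -/
def wr (b : ℕ) : List Instr := [.jeq 1 0 (b + 5), .load 3 1, .write 3, .op .add 1 1 4, .jump b]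

/-- the first `j` words of the input are in the memory -/
structure In (x : List ℕ) (n j : ℕ) (g : Cfg w) : Prop where
  r0 : g.reg 0 = BitVec.ofNat w n
  r1 : g.reg 1 = BitVec.ofNat w j
  r4 : g.reg 4 = BitVec.ofNat w 1
  hi : ∀ r, g.reg (r + 5) = 0
  mem : ∀ a, (g.mem a).toNat = if a.toNat < j then x.getD a.toNat 0 else 0
  inp : g.inp = (x.drop j).map (BitVec.ofNat w)
  drawn : g.drawn = 0
  out : g.out = []

theorem ofNat_ne {a b : ℕ} (h : a < b) (hb : b < 2 ^ w) : BitVec.ofNat w a ≠ BitVec.ofNat w b := by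
  intro e
  have := congrArg BitVec.toNat e
  rw [BitVec.toNat_ofNat, BitVec.toNat_ofNat, Nat.mod_eq_of_lt hb,
    Nat.mod_eq_of_lt (h.trans hb)] at this
  omega

theorem head_drop (x : List ℕ) (j : ℕ) :
    ((x.drop j).map (BitVec.ofNat w)).headD 0 = BitVec.ofNat w (x.getD j 0) := by
  rw [List.headD_eq_head?_getD, List.head?_map, List.head?_drop, List.getD_eq_getElem?_getD]
  cases x[j]? <;> rfl

theorem rd_sim {x : List ℕ} (hx : ∀ i, x.getD i 0 < 2 ^ w) {n e : ℕ} (he : e < 2 ^ w) (d : ℕ) :
    ∀ (j : ℕ) (g : Cfg w), j + d = e → At P g.pc (rd g.pc) → In x n j g →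
      g.reg 2 = BitVec.ofNat w e → ∃ g', Reach P ω g (5 * d + 1) g' ∧ g'.pc = g.pc + 5 ∧
        In x n e g' ∧ g'.reg 2 = BitVec.ofNat w e := by
  induction d with
  | zero =>
    intro j g hj ha hi h2
    obtain rfl : j = e := hj
    have h0 := Reach.one (ω := ω) (ha.get 0 rfl (x := g.pc) rfl)
    simp only [Instr.exec, hi.r1, h2, if_true] at h0
    exact ⟨_, h0, rfl, ⟨hi.r0, hi.r1, hi.r4, hi.hi, hi.mem, hi.inp, hi.drawn, hi.out⟩, h2⟩
  | succ d ih =>
    intro j g hj ha hi h2
    have hne := ofNat_ne (by omega : j < e) he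
    have hjw : (BitVec.ofNat w j).toNat = j := by
      rw [BitVec.toNat_ofNat, Nat.mod_eq_of_lt (by omega)]
    obtain ⟨g', a1, a2, a3, a4⟩ := ih (j + 1) (Instr.exec ω (.jump g.pc) (Instr.exec ω
      (.op .add 1 1 4) (Instr.exec ω (.store 1 3) (Instr.exec ω (.read 3)
        { g with pc := g.pc + 1 })))) (by omega) ha
      { r0 := by simp [Instr.exec, Cfg.set, hi.r0]
        r1 := by simp [Instr.exec, Cfg.set, WOp.eval, hi.r1, hi.r4, BitVec.ofNat_add]
        r4 := by simp [Instr.exec, Cfg.set, hi.r4]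
        hi := fun r => by simp [Instr.exec, Cfg.set, hi.hi]
        mem := fun a => by
          simp only [Instr.exec, Cfg.set, Function.update_self, hi.inp, head_drop,
            Function.update_of_ne (show (1 : ℕ) ≠ 3 by omega), hi.r1]
          by_cases h : a = BitVec.ofNat w j
          · subst h
            rw [Function.update_self, hjw, if_pos (by omega), BitVec.toNat_ofNat,
              Nat.mod_eq_of_lt (hx j)]
          · have h' : a.toNat ≠ j := fun e => h (BitVec.toNat_inj.1 (e.trans hjw.symm))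
            rw [Function.update_of_ne h, hi.mem]
            exact if_congr (by omega) rfl rfl
        inp := by simp [Instr.exec, Cfg.set, hi.inp]
        drawn := hi.drawn
        out := hi.out } (by simp [Instr.exec, Cfg.set, h2])
    refine ⟨g', (Reach.head (ha.get 0 rfl (x := g.pc) rfl) ?_).mono
      (by omega : 5 * d + 1 + 1 + 1 + 1 + 1 + 1 ≤ _), a2, a3, a4⟩
    simp only [Instr.exec, hi.r1, h2, if_neg hne]
    exact Reach.head (g := { g with pc := g.pc + 1 }) (ha.get 1 rfl rfl)
      (Reach.head (ha.get 2 rfl rfl) (Reach.head (ha.get 3 rfl rfl)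
        (Reach.head (ha.get 4 rfl rfl) a1)))

theorem wr_sim {n : ℕ} (hn : n < 2 ^ w) (m : BitVec w → BitVec w) (d : ℕ) :
    ∀ (j : ℕ) (g : Cfg w), j + d = n → At P g.pc (wr g.pc) → g.reg 0 = BitVec.ofNat w n →
      g.reg 1 = BitVec.ofNat w j → g.reg 4 = BitVec.ofNat w 1 → g.mem = m →
      g.out = (List.range j).map (fun v => m (BitVec.ofNat w v)) →
      ∃ g', Reach P ω g (5 * d + 1) g' ∧ g'.pc = g.pc + 5 ∧
        g'.out = (List.range n).map (fun v => m (BitVec.ofNat w v)) := by
  induction d with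
  | zero =>
    intro j g hj ha r0 r1 _ _ ho
    obtain rfl : j = n := hj
    have h0 := Reach.one (ω := ω) (ha.get 0 rfl (x := g.pc) rfl)
    simp only [Instr.exec, r0, r1, if_true] at h0
    exact ⟨_, h0, rfl, ho⟩
  | succ d ih =>
    intro j g hj ha r0 r1 r4 hm ho
    have hne := ofNat_ne (by omega : j < n) hn
    obtain ⟨g', a1, a2, a3⟩ := ih (j + 1) (Instr.exec ω (.jump g.pc) (Instr.exec ω
      (.op .add 1 1 4) (Instr.exec ω (.write 3) (Instr.exec ω (.load 3 1)
        { g with pc := g.pc + 1 })))) (by omega) ha (by simp [Instr.exec, Cfg.set, r0])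
      (by simp [Instr.exec, Cfg.set, WOp.eval, r1, r4, BitVec.ofNat_add])
      (by simp [Instr.exec, Cfg.set, r4]) hm
      (by simp [Instr.exec, Cfg.set, ho, hm, r1, List.range_succ])
    refine ⟨g', (Reach.head (ha.get 0 rfl (x := g.pc) rfl) ?_).mono
      (by omega : 5 * d + 1 + 1 + 1 + 1 + 1 + 1 ≤ _), a2, a3⟩
    simp only [Instr.exec, r0, r1, if_neg hne]
    exact Reach.head (g := { g with pc := g.pc + 1 }) (ha.get 1 rfl rfl)
      (Reach.head (ha.get 2 rfl rfl) (Reach.head (ha.get 3 rfl rfl)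
        (Reach.head (ha.get 4 rfl rfl) a1)))

/-- the whole program -/
noncomputable def prog (p : RProg) : List Instr :=
  [.const 4 1, .read 0, .store 1 0, .const 1 1, .const 2 2, .op .add 2 2 0] ++ (rd 6 ++
    ([.op .sub 3 2 4, .load 3 3, .op .add 2 2 3] ++ (rd 14 ++ (comp p 19 ++
      ([.const 1 0, .const 4 1] ++ wr (21 + len p))))))

theorem iterate_halted {g : Cfg w} (h : P.length ≤ g.pc) (k : ℕ) : (step P ω)^[k] g = g :=
  Function.iterate_fixed (by simp only [step, List.getElem?_eq_none h]) k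

theorem whole {W n d t i : ℕ} {p : RProg} {s : State} {x : List ℕ} (hW : W < 2 ^ w)
    (hx : ∀ i, x.getD i 0 < 2 ^ w) (hn : x.getD 0 0 = n) (hd : x.getD (n + 1) 0 = d)
    (hl : x.length ≤ n + 2 + d) (hb : n + 2 + d < 2 ^ w)
    (h : RExec W ω p (State.init x) 0 t s i) {T : ℕ} (hT : 3 * t + 10 * n + 5 * d + 19 ≤ T) :
    (prog p).length ≤ (run (prog p) w ω x T).pc ∧ (run (prog p) w ω x T).out.length = n ∧
      ∀ v < n, ((run (prog p) w ω x T).out.getD v 0).toNat = s.mem v := by
  have A0 : At (prog p) 0 (prog p) := fun j I hj => by rwa [Nat.zero_add]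
  have A1 := At.right (b' := 6) A0 rfl
  have A2 := At.right (b' := 11) A1 rfl
  have A3 := At.right (b' := 14) A2 rfl
  have A4 := At.right (b' := 19) A3 rfl
  have A5 := At.right (b' := 19 + len p) A4 (by rw [length_comp])
  have A6 := At.right (b' := 21 + len p) A5 (by simp only [List.length_cons, List.length_nil]; omega)
  have hlen : (prog p).length = 26 + len p := by simp [prog, rd, wr, length_comp]; omega
  set g0 : Cfg w := ⟨0, fun _ => 0, fun _ => 0, 0, x.map (BitVec.ofNat w), []⟩ with hg0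
  have hh : (x.map (BitVec.ofNat w)).headD 0 = BitVec.ofNat w n := by
    rw [← hn, ← head_drop x 0, List.drop_zero]
  have toN : ∀ a, a ≤ n + 2 + d → (BitVec.ofNat w a).toNat = a := fun a ha => by
    rw [BitVec.toNat_ofNat, Nat.mod_eq_of_lt (by omega)]
  obtain ⟨g1, a1, a2, a3, a4⟩ := rd_sim (P := prog p) (ω := ω) hx (n := n) (e := n + 2)
    (by omega) (n + 1) 1 (Instr.exec ω (.op .add 2 2 0) (Instr.exec ω (.const 2 2) (Instr.exec ω
      (.const 1 1) (Instr.exec ω (.store 1 0) (Instr.exec ω (.read 0)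
        (Instr.exec ω (.const 4 1) g0)))))) (by omega) A1.left
    { r0 := by simp only [Instr.exec, Cfg.set, hg0, hh]; simp
      r1 := by simp [Instr.exec, Cfg.set]
      r4 := by simp [Instr.exec, Cfg.set]
      hi := fun r => by simp [Instr.exec, Cfg.set, hg0]
      mem := fun a => by
        simp only [Instr.exec, Cfg.set, hg0, hh, Function.update_self,
          Function.update_of_ne (show (1 : ℕ) ≠ 0 by omega),
          Function.update_of_ne (show (1 : ℕ) ≠ 4 by omega)]
        by_cases h : a = 0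
        · subst h
          rw [Function.update_self, toN n (by omega)]
          simp [← hn]
        · have h' : a.toNat ≠ 0 := fun e => h (BitVec.toNat_inj.1 (by simpa using e))
          rw [Function.update_of_ne h, if_neg (by omega)]
          rfl
      inp := by simp [Instr.exec, Cfg.set, hg0]
      drawn := rfl
      out := rfl }
    (by simp only [Instr.exec, Cfg.set, hg0, hh, WOp.eval]; simp [BitVec.ofNat_add, BitVec.add_comm])
  have r1 : Reach (prog p) ω g0 (5 * (n + 1) + 1 + 1 + 1 + 1 + 1 + 1 + 1) g1 :=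
    Reach.head (A0.get 0 rfl rfl) (Reach.head (A0.get 1 rfl rfl) (Reach.head (A0.get 2 rfl rfl)
      (Reach.head (A0.get 3 rfl rfl) (Reach.head (A0.get 4 rfl rfl)
        (Reach.head (A0.get 5 rfl rfl) a1)))))
  have p1 : g1.pc = 11 := a2
  have e1 : BitVec.ofNat w (n + 2) - BitVec.ofNat w 1 = BitVec.ofNat w (n + 1) := by
    rw [show n + 2 = n + 1 + 1 from rfl, BitVec.ofNat_add (n + 1), BitVec.add_sub_cancel]
  have e2 : g1.mem (BitVec.ofNat w (n + 1)) = BitVec.ofNat w d := BitVec.toNat_inj.1 (by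
    rw [a3.mem, toN _ (by omega), if_pos (by omega), hd, toN _ (by omega)])
  obtain ⟨g2, b1, b2, b3, -⟩ := rd_sim (P := prog p) (ω := ω) hx (n := n) (e := n + 2 + d)
    hb d (n + 2) (Instr.exec ω (.op .add 2 2 3) (Instr.exec ω (.load 3 3) (Instr.exec ω
      (.op .sub 3 2 4) g1))) rfl (by simpa only [Instr.exec, Cfg.set, p1] using A3.left)
    { r0 := by simp [Instr.exec, Cfg.set, a3.r0]
      r1 := by simp [Instr.exec, Cfg.set, a3.r1]
      r4 := by simp [Instr.exec, Cfg.set, a3.r4]
      hi := fun r => by simp [Instr.exec, Cfg.set, a3.hi]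
      mem := a3.mem
      inp := a3.inp
      drawn := a3.drawn
      out := a3.out }
    (by
      simp only [Instr.exec, Cfg.set, WOp.eval, Function.update_self, a4, a3.r4, e1, e2,
        Function.update_of_ne (show (2 : ℕ) ≠ 3 by omega)]
      rw [BitVec.ofNat_add (n + 2)])
  have r2 : Reach (prog p) ω g1 (5 * d + 1 + 1 + 1 + 1) g2 :=
    Reach.head (A2.get 0 rfl p1) (Reach.head (A2.get 1 rfl (congrArg (· + 1) p1))
      (Reach.head (A2.get 2 rfl (congrArg (· + 1 + 1) p1)) b1))
  have p2 : g2.pc = 19 := by simpa only [Instr.exec, Cfg.set, p1] using b2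
  obtain ⟨g3, c1, c2, c3, c4, -, c5⟩ := sim (P := prog p) hW h g2 (by rw [p2]; exact A4.left)
    ⟨fun r => by rw [b3.hi]; rfl, fun a => by
      rw [b3.mem]
      split_ifs with ha
      · rfl
      · exact (List.getD_eq_default _ _ (by omega)).symm, b3.drawn⟩
  rw [p2] at c2
  obtain ⟨g4, d1, d2, d3⟩ := wr_sim (P := prog p) (ω := ω) (n := n) (by omega) g3.mem n 0
    (Instr.exec ω (.const 4 1) (Instr.exec ω (.const 1 0) g3)) (by omega)
    (by
      have : g3.pc + 1 + 1 = 21 + len p := by omega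
      simpa only [Instr.exec, Cfg.set, this] using A6)
    (by simp [Instr.exec, Cfg.set, c4, b3.r0]) (by simp [Instr.exec, Cfg.set])
    (by simp [Instr.exec, Cfg.set]) rfl (c5.trans b3.out)
  have r4 : Reach (prog p) ω g3 (5 * n + 1 + 1 + 1) g4 :=
    Reach.head (A5.get 0 rfl c2) (Reach.head (A5.get 1 rfl (congrArg (· + 1) c2)) d1)
  have p4 : (prog p).length ≤ g4.pc := by
    simp only [Instr.exec, Cfg.set] at d2
    omega
  obtain ⟨t', ht', e⟩ := ((r1.trans r2).trans c1).trans r4
  have hrun : run (prog p) w ω x T = g4 := by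
    rw [run, show T = T - t' + t' by omega, Function.iterate_add_apply, ← hg0, e,
      iterate_halted p4]
  rw [hrun, d3]
  refine ⟨p4, by simp, fun v hv => ?_⟩
  rw [List.getD_eq_getElem _ _ (by simpa using hv), List.getElem_map, List.getElem_range, c3.mem,
    toN v (by omega)]

end Vale.Agent.P305R13
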